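import Vale.Agent.P284.H395.StkS
import Vale.Agent.P284.H213.Grp.AsmS
import Vale.Agent.P284.H894.G.Amen

/-!
# P284 (helper837), theorem T1': statements

**T1'**: let `X` be a connected smooth projective manifold all of whose finite étale coverings are
special (`FSp`).  Then every amenable quotient of `π₁(X)` is virtually abelian.

`SpStmt` replaces `SigStmt`: a special projective manifold carries no Hilbert space valued natural form
of full rank `R` on a Galois covering `E` with the local finiteness property `LFin` (the translates of a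
sheet are locally finite modulo a subgroup acting trivially).
-/

open scoped Manifold ContDiff Topology Pointwise ComplexConjugate ComplexOrder
open Filter Set Metric MeasureTheory

noncomputable section

namespace Vale.Agent.P284.H837

open Vale.Agent.P272.K Vale.Agent.P284.H248 Vale.Agent.P284.H894 Vale.Agent.P284.H894.G
  Vale.Agent.P284.H894.V Vale.Agent.P284.H894.W Vale.Agent.P284.H998 Vale.Agent.P284.H573
  Vale.Agent.P284.H395 Vale.Agent.P284.H213.Grp

section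
variable {n R q : ℕ} {X : Type} [TopologicalSpace X] [ChartedSpace (Cm n) X] {E : Type}
  [TopologicalSpace E] {H : Type} [NormedAddCommGroup H] [InnerProductSpace ℂ H]

/-- `v` is equivariant: every element of the group acts on the values by a linear isometry. -/
def Eqv (Γ : Type) [Group Γ] [MulAction Γ E] (p : E → X)
    (v : E → Chart n X → (Fin R → Cm n) → H) : Prop :=
  ∀ g : Γ, ∃ U : H →ₗᵢ[ℂ] H, ∀ y e, At e (p y) → ∀ ξ, v (g • y) e ξ = U (v y e ξ)

/-- The normal form `v = (det (db ξ))^m γ(b)`, `F = t(b)` near the good point `y₀`. -/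
structure NFF (m : ℕ) (p : E → X) (v : E → Chart n X → (Fin R → Cm n) → H) (F : E → Cm q) (y₀ : E)
    (e : Chart n X) (b : Cm n → Cm R) (γ : Cm R → H) (t : Cm R → Cm q) : Prop where
  nf : IsNF m p v y₀ e b γ
  tan : AnalyticAt ℂ t (b (e (p y₀)))
  eq : ∀ᶠ y in 𝓝 y₀, F y = t (b (e (p y)))

/-- `y` lies on the sheet `(γ, t)` over the point `x` of `ℂᴿ`: near `y` there is a holomorphic map `β`
to `ℂᴿ`, `β y = x`, such that `v ∈ ℂ γ(β)` and `F = t(β)`. -/
def Sh0 (p : E → X) (v : E → Chart n X → (Fin R → Cm n) → H) (F : E → Cm q) (γ : Cm R → H)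
    (t : Cm R → Cm q) (y : E) (x : Cm R) : Prop :=
  ∃ (e : Chart n X) (β : Cm n → Cm R), At e (p y) ∧ AnalyticAt ℂ β (e (p y)) ∧ β (e (p y)) = x ∧
    ∀ᶠ y' in 𝓝 y, (∀ ξ, ∃ a : ℂ, v y' e ξ = a • γ (β (e (p y')))) ∧ F y' = t (β (e (p y')))

/-- Local finiteness of the translates of the sheets of full dimension `R`, modulo a subgroup `S` which
fixes `v` and `F`: only finitely many translates (modulo `S`) of points near `y₀` lie on the sheet of
`y₀` over a small ball. -/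
def LFin (Γ : Type) [Group Γ] [MulAction Γ E] (m : ℕ) (p : E → X)
    (v : E → Chart n X → (Fin R → Cm n) → H) (F : E → Cm q) : Prop :=
  ∃ S : Subgroup Γ, (∀ g ∈ S, ∀ y, F (g • y) = F y) ∧
    (∀ g ∈ S, ∀ y e, At e (p y) → ∀ ξ, v (g • y) e ξ = v y e ξ) ∧
    ∀ (y₀ : E) (e : Chart n X) (b : Cm n → Cm R) (γ : Cm R → H) (t : Cm R → Cm q),
      NFF m p v F y₀ e b γ t → ∃ r > 0, ∃ U ∈ 𝓝 y₀,
        {a : Γ ⧸ S | ∃ g : Γ, (g : Γ ⧸ S) = a ∧ ∃ y ∈ U, ∃ x ∈ ball (b (e (p y₀))) r,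
          Sh0 p v F γ t (g⁻¹ • y) x}.Finite

end

/-- **SP**: a special projective manifold has no natural form of full rank on a Galois covering. -/
def SpStmt : Prop :=
  ∀ (n : ℕ) (X : Type) [TopologicalSpace X] [T2Space X] [CompactSpace X] [ConnectedSpace X]
    [ChartedSpace (Cm n) X] [IsManifold 𝓘(ℂ, Cm n) ω X] (ι : Type) [Fintype ι] (_ : PJ n X ι)
    (_ : Special n X)
    (E Γ : Type) [TopologicalSpace E] [ConnectedSpace E] [Group Γ] [MulAction Γ E]
    (p : E → X) (_ : IsGalois Γ p)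
    (q : ℕ) (F : E → Cm q) (c : Γ → Cm q)
    (_ : ∀ (y : E) (e : Chart n X), At e (p y) → ∃ f : Cm n → Cm q,
      (∀ᶠ y' in 𝓝 y, F y' = f (e (p y'))) ∧ AnalyticAt ℂ f (e (p y)))
    (_ : ∀ g y, F (g • y) = F y + c g)
    (H : Type) [NormedAddCommGroup H] [InnerProductSpace ℂ H] [CompleteSpace H]
    (R m : ℕ) (_ : 1 ≤ R) (_ : 1 ≤ m) (v : E → Chart n X → (Fin R → Cm n) → H)
    (_ : HForm n R m p H v) (_ : Eqv Γ p v)
    (_ : ∃ y₀ e b γ t, NFF m p v F y₀ e b γ t) (_ : LFin Γ m p v F),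
    False

/-- All finite étale coverings of `X` (including `X`) are special. -/
def FSp (n : ℕ) (X : Type) [TopologicalSpace X] [ChartedSpace (Cm n) X] : Prop :=
  ∀ (X' : Type) [TopologicalSpace X'] [T2Space X'] [CompactSpace X'] [ConnectedSpace X']
    [ChartedSpace (Cm n) X'] [IsManifold 𝓘(ℂ, Cm n) ω X'] (π : X' → X), IsCoveringMap π →
    ContMDiff 𝓘(ℂ, Cm n) 𝓘(ℂ, Cm n) ω π → Special n X'

/-- **ALB+U** for special manifolds (`E` simply connected, no hypothesis on the group). -/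
def AlbSpStmt : Prop :=
  ∀ (n : ℕ) (X : Type) [TopologicalSpace X] [T2Space X] [CompactSpace X] [ConnectedSpace X]
    [ChartedSpace (Cm n) X] [IsManifold 𝓘(ℂ, Cm n) ω X] (ι : Type) [Fintype ι] (_ : PJ n X ι)
    (_ : FSp n X) (w : Chart n X → Cm n → Matrix (Fin n) (Fin n) ℂ), IsKahler w →
    ∀ (E Γ : Type) [TopologicalSpace E] [SimplyConnectedSpace E] [Group Γ] [MulAction Γ E]
      (p : E → X), IsGalois Γ p →
    ∃ (G K : Subgroup Γ) (q : ℕ) (F : E → Cm q) (c : Γ → Cm q), Alb p w G K F c ∧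
      ∃ y, Reg (n := n) p F y

/-- **MF** for special manifolds. -/
def MFSpStmt : Prop :=
  ∀ (n : ℕ) (X : Type) [TopologicalSpace X] [T2Space X] [CompactSpace X] [ConnectedSpace X]
    [ChartedSpace (Cm n) X] [IsManifold 𝓘(ℂ, Cm n) ω X] (ι : Type) [Fintype ι] (_ : PJ n X ι)
    (_ : FSp n X) (w : Chart n X → Cm n → Matrix (Fin n) (Fin n) ℂ), IsKahler w →
    ∀ (E Γ : Type) [TopologicalSpace E] [ConnectedSpace E] [Group Γ] [MulAction Γ E]
      (p : E → X), IsGalois Γ p →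
    ∀ (q : ℕ) (F : E → Cm q) (c : Γ → Cm q), (∃ B, HolB p w F B) → (∀ g y, F (g • y) = F y + c g) →
      LatChar Γ q c → (∃ y, Reg (n := n) p F y) → GenConn (n := n) p F

/-- **COV** for special manifolds. -/
def CovSpStmt : Prop :=
  ∀ (n : ℕ) (X : Type) [TopologicalSpace X] [T2Space X] [CompactSpace X] [ConnectedSpace X]
    [ChartedSpace (Cm n) X] [IsManifold 𝓘(ℂ, Cm n) ω X] (ι : Type) [Fintype ι] (_ : PJ n X ι)
    (_ : FSp n X) (w : Chart n X → Cm n → Matrix (Fin n) (Fin n) ℂ), IsKahler w →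
    ∀ (E Γ : Type) [TopologicalSpace E] [ConnectedSpace E] [Group Γ] [MulAction Γ E]
      (p : E → X), IsGalois Γ p →
    ∀ (G : Subgroup Γ), G.FiniteIndex → ∀ (M : Subgroup G) (_ : M.Normal),
    ∃ (X₁ : Type) (_ : TopologicalSpace X₁) (_ : T2Space X₁) (_ : CompactSpace X₁)
      (_ : ConnectedSpace X₁) (_ : ChartedSpace (Cm n) X₁) (_ : IsManifold 𝓘(ℂ, Cm n) ω X₁)
      (_ : PJ n X₁ ι) (_ : FSp n X₁)
      (w₁ : Chart n X₁ → Cm n → Matrix (Fin n) (Fin n) ℂ) (_ : IsKahler w₁)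
      (E₁ : Type) (_ : TopologicalSpace E₁) (_ : ConnectedSpace E₁) (_ : MulAction (G ⧸ M) E₁)
      (p₁ : E₁ → X₁) (_ : IsGalois (G ⧸ M) p₁) (π : E → E₁),
      Continuous π ∧ Function.Surjective π ∧
      (∀ (g : G) (y : E), π ((g : Γ) • y) = (g : G ⧸ M) • π y) ∧
      ∀ (q : ℕ) (F : E → Cm q) (B : ℝ), HolB p w F B →
        (∀ m ∈ M, ∀ y, F (((m : G) : Γ) • y) = F y) →
        ∃ F₁ : E₁ → Cm q, (∀ y, F₁ (π y) = F y) ∧ HolB p₁ w₁ F₁ B ∧
          ∀ y, Reg (n := n) p F y → Reg (n := n) p₁ F₁ (π y)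

/-- **CORE** for special manifolds: there are no normalised data with amenable group. -/
def CoreSpStmt : Prop :=
  ∀ (n : ℕ) (X : Type) [TopologicalSpace X] [T2Space X] [CompactSpace X] [ConnectedSpace X]
    [ChartedSpace (Cm n) X] [IsManifold 𝓘(ℂ, Cm n) ω X] (ι : Type) [Fintype ι] (_ : PJ n X ι)
    (_ : FSp n X) (w : Chart n X → Cm n → Matrix (Fin n) (Fin n) ℂ), IsKahler w →
    ∀ (E Γ : Type) [TopologicalSpace E] [ConnectedSpace E] [Group Γ] [MulAction Γ E]
      (p : E → X), IsGalois Γ p → Folner Γ →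
    ∀ (q : ℕ) (F : E → Cm q) (c : Γ → Cm q) (K : Subgroup Γ), (∃ B, HolB p w F B) →
      (∀ g y, F (g • y) = F y + c g) → (∃ y, Reg (n := n) p F y) → GenConn (n := n) p F →
      NPkg Γ q c K → False

/-- **UNI** for special manifolds: a twisted cocycle with non-unitary character vanishes on the kernel
of the periods (`H409.A.Uni`), if the generic fibre of `F` is connected. -/
def UniSpStmt : Prop :=
  ∀ (n : ℕ) (X : Type) [TopologicalSpace X] [T2Space X] [CompactSpace X] [ConnectedSpace X]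
    [ChartedSpace (Cm n) X] [IsManifold 𝓘(ℂ, Cm n) ω X]
    (w : Chart n X → Cm n → Matrix (Fin n) (Fin n) ℂ), IsKahler w →
    ∀ (E Γ : Type) [TopologicalSpace E] [SimplyConnectedSpace E] [Group Γ] [MulAction Γ E]
      (p : E → X), IsGalois Γ p →
    ∀ (G K : Subgroup Γ) (q : ℕ) (F : E → Cm q) (c : Γ → Cm q), Alb p w G K F c →
      (∃ y, Reg (n := n) p F y) → GenConn (n := n) p F →
      ∀ G₁ : Subgroup Γ, G₁.FiniteIndex → G₁ ≤ G → ∀ χ f : Γ → ℂ,
        (∀ g ∈ G₁, χ g ≠ 0) → (∀ g ∈ G₁, ∀ h ∈ G₁, χ (g * h) = χ g * χ h) →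
        (∀ g ∈ G₁, ∀ h ∈ G₁, f (g * h) = f g + χ g * f h) → (∃ g ∈ G₁, ‖χ g‖ ≠ 1) →
        ∀ k ∈ G₁, c k = 0 → χ k = 1 → f k = 0

/-- the theorem for a simply connected covering -/
def MainSp : Prop :=
  ∀ (n : ℕ) (X : Type) [TopologicalSpace X] [T2Space X] [CompactSpace X] [ConnectedSpace X]
    [ChartedSpace (Cm n) X] [IsManifold 𝓘(ℂ, Cm n) ω X] (ι : Type) [Fintype ι] (_ : PJ n X ι)
    (_ : FSp n X) (w : Chart n X → Cm n → Matrix (Fin n) (Fin n) ℂ), IsKahler w →
    ∀ (E Γ : Type) [TopologicalSpace E] [SimplyConnectedSpace E] [Group Γ] [MulAction Γ E]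
      (p : E → X), IsGalois Γ p →
    ∀ (Q : Type) [Group Q] (π : Γ →* Q), Function.Surjective π → Folner Q → VirtuallyAbelian Q

/-- **T1'** for the fundamental group -/
def MainPiSp : Prop :=
  ∀ (n : ℕ) (X : Type) [TopologicalSpace X] [T2Space X] [CompactSpace X] [ConnectedSpace X]
    [ChartedSpace (Cm n) X] [IsManifold 𝓘(ℂ, Cm n) ω X] (ι : Type) [Fintype ι] (_ : PJ n X ι)
    (_ : FSp n X) (w : Chart n X → Cm n → Matrix (Fin n) (Fin n) ℂ), IsKahler w →
    ∀ (x : X) (Q : Type) [Group Q] (π : FundamentalGroup X x →* Q), Function.Surjective π →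
    Folner Q → VirtuallyAbelian Q

end Vale.Agent.P284.H837
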