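import Vale.Agent.P284.H837.SpS

/-!
# P284 (helper837), T1': local finiteness when `ker c` acts trivially on `v`
-/

open scoped Manifold ContDiff Topology
open Filter Set Metric

noncomputable section

namespace Vale.Agent.P284.H837

open Vale.Agent.P272.K Vale.Agent.P284.H573

variable {n R q m : ℕ} {X : Type} [TopologicalSpace X] [ChartedSpace (Cm n) X] {E : Type}
  [TopologicalSpace E] {H : Type} [NormedAddCommGroup H] [InnerProductSpace ℂ H]
  {Γ : Type} [Group Γ] [MulAction Γ E] {p : E → X} {v : E → Chart n X → (Fin R → Cm n) → H}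
  {F : E → Cm q} {c : Γ → Cm q}

lemma c_mul [Nonempty E] (hF : ∀ g y, F (g • y) = F y + c g) (g h : Γ) : c (g * h) = c g + c h := by
  obtain ⟨y⟩ := ‹Nonempty E›
  have h1 := hF (g * h) y
  rw [mul_smul, hF, hF] at h1
  have h2 : F y + (c h + c g) = F y + c (g * h) := by rw [← h1, add_assoc]
  rw [← add_left_cancel h2, add_comm]

lemma c_one [Nonempty E] (hF : ∀ g y, F (g • y) = F y + c g) : c 1 = 0 := by
  have := c_mul hF 1 1
  rw [mul_one] at this
  exact left_eq_add.mp this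

lemma c_inv [Nonempty E] (hF : ∀ g y, F (g • y) = F y + c g) (g : Γ) : c g⁻¹ = -c g := by
  have := c_mul hF g⁻¹ g
  rw [inv_mul_cancel, c_one hF] at this
  exact (neg_eq_of_add_eq_zero_left this.symm).symm

/-- If the kernel of the periods acts trivially on `v`, then the translates of the sheets are locally
finite modulo this kernel. -/
theorem lfin_of_ker [Nonempty E] (hF : ∀ g y, F (g • y) = F y + c g) (hFc : Continuous F)
    (hc : ∀ ρ : ℝ, {t | (∃ g, c g = t) ∧ ‖t‖ ≤ ρ}.Finite)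
    (hv : ∀ g, c g = 0 → ∀ y e, At e (p y) → ∀ ξ, v (g • y) e ξ = v y e ξ) :
    LFin Γ m p v F := by
  let S : Subgroup Γ :=
    { carrier := {g | c g = 0}
      mul_mem' := fun {a b} ha hb => by
        change c (a * b) = 0
        rw [c_mul hF, show c a = 0 from ha, show c b = 0 from hb, add_zero]
      one_mem' := c_one hF
      inv_mem' := fun {a} ha => by
        change c a⁻¹ = 0
        rw [c_inv hF, show c a = 0 from ha, neg_zero] }
  have hS : ∀ g, g ∈ S ↔ c g = 0 := fun g => Iff.rfl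
  refine ⟨S, fun g hg y => by rw [hF, (hS g).1 hg, add_zero], fun g hg => hv g hg, ?_⟩
  intro y₀ e b γ t hN
  obtain ⟨r, hr, hball⟩ := Metric.eventually_nhds_iff_ball.1
    (hN.tan.continuousAt.norm.eventually_lt_const (lt_add_one ‖t (b (e (p y₀)))‖))
  set A := ‖t (b (e (p y₀)))‖ + 1 with hA
  have hU : {y | ‖F y‖ < ‖F y₀‖ + 1} ∈ 𝓝 y₀ :=
    hFc.continuousAt.norm.eventually_lt_const (lt_add_one _)
  refine ⟨r, hr, _, hU, ?_⟩
  refine Set.Finite.of_finite_image (f := fun a : Γ ⧸ S => c a.out)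
    ((hc (‖F y₀‖ + 1 + A)).subset ?_) ?_
  · rintro _ ⟨a, ⟨g, rfl, y, hy, x, hx, hsh⟩, rfl⟩
    refine ⟨⟨_, rfl⟩, ?_⟩
    have h1 : c ((g : Γ ⧸ S).out) = c g := by
      have h2 : g⁻¹ * (g : Γ ⧸ S).out ∈ S := by
        rw [← QuotientGroup.eq]
        exact (QuotientGroup.out_eq' (g : Γ ⧸ S)).symm
      rw [hS, c_mul hF, c_inv hF, neg_add_eq_zero] at h2
      exact h2.symm
    change ‖c ((g : Γ ⧸ S).out)‖ ≤ _
    rw [h1]
    obtain ⟨e', β, -, -, hβ, hev⟩ := hsh
    have h3 := hev.self_of_nhds.2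
    rw [hβ, hF, c_inv hF] at h3
    have h4 : c g = F y - t x := by
      rw [← h3]; abel
    rw [h4]
    have h5 : ‖F y‖ < ‖F y₀‖ + 1 := hy
    have h6 := hball x hx
    calc ‖F y - t x‖ ≤ ‖F y‖ + ‖t x‖ := norm_sub_le _ _
      _ ≤ _ := by linarith
  · intro a _ a' _ h
    have h' : c a.out = c a'.out := h
    have h2 : a.out⁻¹ * a'.out ∈ S := by
      rw [hS, c_mul hF, c_inv hF, h', neg_add_cancel]
    rw [← QuotientGroup.eq] at h2
    rwa [QuotientGroup.out_eq', QuotientGroup.out_eq'] at h2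

end Vale.Agent.P284.H837
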