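import Vale.Agent.P284.H837.Br2
import Vale.Agent.P284.H553.LBS
import Vale.Agent.P284.H451.JetZ

/-!
# P284 (helper837), T1': statements of the pieces of the glue
-/

open scoped Manifold ContDiff Topology ComplexOrder
open Filter Set Metric

noncomputable section

namespace Vale.Agent.P284.H837

open Vale.Agent.P272.K Vale.Agent.P272.KOD Vale.Agent.P284.H573 Vale.Agent.P284.H812
  Vale.Agent.P284.H451 Vale.Agent.P284.H553 Vale.Agent.P284.H619 Vale.Agent.P284.H894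
  Vale.Agent.P284.H894.G Vale.Agent.P284.H553.LB Vale.Agent.P284.H335

/-- the standing data -/
structure Dat (n R q m : ℕ) (X E Γ : Type) [TopologicalSpace X] [ChartedSpace (Cm n) X]
    [TopologicalSpace E] [Group Γ] [MulAction Γ E] (H : Type) [NormedAddCommGroup H]
    [InnerProductSpace ℂ H] (p : E → X) (v : E → Chart n X → (Fin R → Cm n) → H) (F : E → Cm q)
    (c : Γ → Cm q) : Prop where
  hR : 1 ≤ R
  hm : 1 ≤ m
  gal : IsGalois Γ p
  hv : HForm n R m p H v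
  eqv : Eqv Γ p v
  hF : HolF n p F
  per : ∀ g y, F (g • y) = F y + c g

/-- **(M1)** multiplicity of the branches from local finiteness -/
def M1Stmt : Prop :=
  ∀ (n R q m : ℕ) (X E Γ : Type) [TopologicalSpace X] [ChartedSpace (Cm n) X]
    [IsManifold 𝓘(ℂ, Cm n) ω X]
    [TopologicalSpace E] [Group Γ] [MulAction Γ E] (H : Type) [NormedAddCommGroup H]
    [InnerProductSpace ℂ H] [CompleteSpace H] (p : E → X)
    (v : E → Chart n X → (Fin R → Cm n) → H) (F : E → Cm q)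
    (c : Γ → Cm q) (_ : Dat n R q m X E Γ H p v F c) (_ : LFin Γ m p v F)
    (Z : Type) [TopologicalSpace Z] [ChartedSpace (Cm R) Z] [IsManifold 𝓘(ℂ, Cm R) ω Z]
    (j : Z → X) (_ : ContMDiff 𝓘(ℂ, Cm R) 𝓘(ℂ, Cm n) ω j)
    (y₀ : E) (e : Chart n X) (b : Cm n → Cm R) (γ : Cm R → H) (t : Cm R → Cm q)
    (_ : NFF m p v F y₀ e b γ t),
    ∃ r > 0, ∃ N₀ : ℕ, BrMult (ball (b (e (p y₀))) r) (BrG p v F j γ t) N₀

/-- **(M2)** the good points form a connected set, and all of them are good for `F`. -/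
def M2Stmt : Prop :=
  ∀ (n R q m : ℕ) (X E Γ : Type) [TopologicalSpace X] [T2Space X] [ChartedSpace (Cm n) X]
    [IsManifold 𝓘(ℂ, Cm n) ω X]
    [TopologicalSpace E] [ConnectedSpace E] [Group Γ] [MulAction Γ E] (H : Type)
    [NormedAddCommGroup H]
    [InnerProductSpace ℂ H] [CompleteSpace H] (p : E → X)
    (v : E → Chart n X → (Fin R → Cm n) → H) (F : E → Cm q)
    (c : Γ → Cm q) (_ : Dat n R q m X E Γ H p v F c)
    (y₀ : E) (e : Chart n X) (b : Cm n → Cm R) (γ : Cm R → H) (t : Cm R → Cm q)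
    (_ : NFF m p v F y₀ e b γ t),
    IsPreconnected {y : E | GoodAt p R m v y} ∧ IsPreconnected (GoodX p R m v) ∧
      ∀ (y : E) (e : Chart n X) (b : Cm n → Cm R) (γ : Cm R → H), IsNF m p v y e b γ →
        ∃ t : Cm R → Cm q, NFF m p v F y e b γ t

/-- **(M3)** comparison of two normal forms over the same point of `X` -/
def M3Stmt : Prop :=
  ∀ (n R q m : ℕ) (X E Γ : Type) [TopologicalSpace X] [ChartedSpace (Cm n) X]
    [IsManifold 𝓘(ℂ, Cm n) ω X]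
    [TopologicalSpace E] [Group Γ] [MulAction Γ E] (H : Type) [NormedAddCommGroup H]
    [InnerProductSpace ℂ H] [CompleteSpace H] (p : E → X)
    (v : E → Chart n X → (Fin R → Cm n) → H) (F : E → Cm q)
    (c : Γ → Cm q) (_ : Dat n R q m X E Γ H p v F c)
    (y y' : E) (_ : p y' = p y) (e e' : Chart n X) (b b' : Cm n → Cm R) (γ γ' : Cm R → H)
    (t t' : Cm R → Cm q)
    (_ : NFF m p v F y e b γ t) (_ : NFF m p v F y' e' b' γ' t'),
    ∃ φ : Cm R → Cm R, AnalyticAt ℂ φ (b (e (p y))) ∧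
      Function.Bijective (fderiv ℂ φ (b (e (p y)))) ∧
      (∀ᶠ x in 𝓝 (p y), b' (e' x) = φ (b (e x))) ∧
      (∃ (g : Γ) (U : H →ₗᵢ[ℂ] H), (∀ y e, At e (p y) → ∀ ξ, v (g • y) e ξ = U (v y e ξ)) ∧
        (∀ᶠ z in 𝓝 (b (e (p y))), U (γ z) = (fderiv ℂ φ z).det ^ m • γ' (φ z)) ∧
        ∀ᶠ z in 𝓝 (b (e (p y))), t' (φ z) = t z + c g) ∧
      ∀ (Z : Type) [TopologicalSpace Z] [ChartedSpace (Cm R) Z] [IsManifold 𝓘(ℂ, Cm R) ω Z]
        (j : Z → X) (_ : ContMDiff 𝓘(ℂ, Cm R) 𝓘(ℂ, Cm n) ω j),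
        (BrG p v F j γ t (b (e (p y)))).encard = (BrG p v F j γ' t' (b' (e' (p y)))).encard ∧
        ∀ (k : ℕ) (σ : PSec R k Z), trv (BrG p v F j γ t) σ (b (e (p y))) =
          trv (BrG p v F j γ' t') σ (b' (e' (p y))) * (fderiv ℂ φ (b (e (p y)))).det ^ k

/-- **(M4)** the Segre transform of `γ` over a ball -/
def M4Stmt : Prop :=
  ∀ (R m : ℕ) (Z : Type) [TopologicalSpace Z] [ChartedSpace (Cm R) Z] [IsManifold 𝓘(ℂ, Cm R) ω Z]
    (H : Type) [NormedAddCommGroup H] [InnerProductSpace ℂ H] [CompleteSpace H]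
    (N : Chart R Z → Cm R → ℝ) (_ : HMet R m Z H N) (B : Set (Cm R)) (_ : IsOpen B)
    (γ : Cm R → H) (_ : DifferentiableOn ℂ γ B) (_ : ∀ z ∈ B, ImmAt γ z),
    ∃ (K : Type) (_ : NormedAddCommGroup K) (_ : InnerProductSpace ℂ K) (_ : CompleteSpace K)
      (V : Cm R → K), DifferentiableOn ℂ V B ∧
      (∀ z ∈ B, V z ≠ 0 ∧ ∀ (ξ : Cm R) (a : ℂ), fderiv ℂ V z ξ = a • V z → ξ = 0) ∧
      (∀ z, ‖V z‖ ^ 2 = ‖γ z‖ ^ 2 * (gm (frame γ z)).det.re) ∧
      ∀ z ∈ B, ∀ e f, IsBranch m N γ z e f → IsBranch (m * (R + 2) + 1) (segN N) V z e f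

/-- **(M5)** the norm of the Segre transform, times the Jacobian, is locally bounded on `X` -/
def M5Stmt : Prop :=
  ∀ (n R q m : ℕ) (X E Γ : Type) [TopologicalSpace X] [ChartedSpace (Cm n) X]
    [IsManifold 𝓘(ℂ, Cm n) ω X]
    [TopologicalSpace E] [Group Γ] [MulAction Γ E] (H : Type) [NormedAddCommGroup H]
    [InnerProductSpace ℂ H] [CompleteSpace H] (p : E → X)
    (v : E → Chart n X → (Fin R → Cm n) → H) (F : E → Cm q)
    (c : Γ → Cm q) (_ : Dat n R q m X E Γ H p v F c)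
    (x : X) (e : Chart n X) (_ : At e x) (ξ : Fin R → Cm n),
    ∃ C : ℝ, ∀ᶠ x' in 𝓝 x, ∀ (y : E) (e₀ : Chart n X) (b : Cm n → Cm R) (γ : Cm R → H),
      p y = x' → IsNF m p v y e₀ b γ →
      ‖γ (b (e₀ x'))‖ ^ 2 * (gm (frame γ (b (e₀ x')))).det.re *
        (‖(DM (fun z => b (e₀ (e.symm z))) (e x') ξ).det‖ ^ 2) ^ (m * (R + 2) + 1) ≤ C

/-- **(M6)** the first branch: if `b ∘ e ∘ j` is a local biholomorphism at a point `z₁` with `j z₁` near
`p y₀`, then there is a branch at `b (e (j z₁))`. -/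
def M6Stmt : Prop :=
  ∀ (n R q m : ℕ) (X E Γ : Type) [TopologicalSpace X] [ChartedSpace (Cm n) X]
    [IsManifold 𝓘(ℂ, Cm n) ω X]
    [TopologicalSpace E] [Group Γ] [MulAction Γ E] (H : Type) [NormedAddCommGroup H]
    [InnerProductSpace ℂ H] [CompleteSpace H] (p : E → X)
    (v : E → Chart n X → (Fin R → Cm n) → H) (F : E → Cm q)
    (c : Γ → Cm q) (_ : Dat n R q m X E Γ H p v F c)
    (y₀ : E) (e : Chart n X) (b : Cm n → Cm R) (γ : Cm R → H) (t : Cm R → Cm q)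
    (_ : NFF m p v F y₀ e b γ t),
    ∃ W ∈ 𝓝 (p y₀), ∀ (Z : Type) [TopologicalSpace Z] [ChartedSpace (Cm R) Z]
      [IsManifold 𝓘(ℂ, Cm R) ω Z] (j : Z → X) (_ : ContMDiff 𝓘(ℂ, Cm R) 𝓘(ℂ, Cm n) ω j)
      (z₁ : Z) (k : Chart R Z), At k z₁ → j z₁ ∈ W →
      Function.Bijective (fderiv ℂ (fun z => b (e (j (k.symm z)))) (k z₁)) →
      (BrG p v F j γ t (b (e (j z₁)))).Nonempty

/-- **(M7)** over the ball `B`: finitely many branches, at most `d ≥ 1` everywhere and `d` on a dense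
set; there is a point `β` of `B` (near `β₁`) and sections of a power of `K_Z` with the bound by the
weight `N` whose traces have independent ratios at `β`. -/
def M7Stmt : Prop :=
  ∀ (R m : ℕ) (_ : 1 ≤ R) (_ : 1 ≤ m) (Z : Type) [TopologicalSpace Z] [T2Space Z]
    [CompactSpace Z] [ConnectedSpace Z] [ChartedSpace (Cm R) Z] [IsManifold 𝓘(ℂ, Cm R) ω Z]
    (w : Chart R Z → Cm R → ℝ) (_ : IsCanonicalMetric w)
    (_ : ∀ e x, At e x → (cHess (w e) (e x)).PosDef)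
    (H : Type) [NormedAddCommGroup H] [InnerProductSpace ℂ H] [CompleteSpace H]
    (N : Chart R Z → Cm R → ℝ) (_ : HMet R m Z H N) (_ : HImmAt R Z H N)
    (H' : Type) [NormedAddCommGroup H'] [InnerProductSpace ℂ H'] [CompleteSpace H']
    (V : Cm R → H') (B : Set (Cm R)) (_ : IsOpen B) (_ : DifferentiableOn ℂ V B)
    (_ : ∀ b ∈ B, V b ≠ 0)
    (G : ∀ b : Cm R, Set (Germ (𝓝 b) Z)) (_ : BrFam m N V B G) (d : ℕ)
    (_ : ∀ b ∈ B, (G b).encard ≤ d) (β₀ : Cm R) (_ : β₀ ∈ B) (_ : (G β₀).encard = d)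
    (_ : 1 ≤ d),
    ∃ (k l : ℕ) (σ : Fin (R + 1) → PSec R k Z) (C : ℝ) (β : Cm R), 1 ≤ k ∧ 1 ≤ l ∧ β ∈ B ∧
      (∀ i e x, At e x → (‖(σ i).coeff e (e x)‖ ^ 2) ^ m ≤
        C * N e (e x) ^ k * (N e (e x) * Real.exp (-(m : ℝ) * w e (e x))) ^ l) ∧
      trv G (σ 0) β ≠ 0 ∧ LinearIndependent ℂ fun a : Fin R =>
        fderiv ℂ (fun z => trv G (σ a.succ) z / trv G (σ 0) z) β

end Vale.Agent.P284.H837
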