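import Vale.Agent.P284.H837.SpS
import Vale.Agent.P284.H573.HSig
import Vale.Agent.P284.H619.NS0A
import Vale.Agent.P268.Hol

/-!
# P284 (helper837), T1': local tools (lifts, pull-backs)
-/

open scoped Manifold ContDiff Topology
open Filter Set Metric

noncomputable section

namespace Vale.Agent.P284.H837

open Vale.Agent.P272.K Vale.Agent.P284.H573 Vale.Agent.P284.H812 Vale.Agent.P284.H619

section top

variable {X E S : Type*} [TopologicalSpace X] [TopologicalSpace E] [TopologicalSpace S] {p : E → X}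

/-- a lift which is continuous at one point is continuous near this point -/
lemma lift_cont (hp : IsLocalHomeomorph p) {u : S → X} {l : S → E} {β : S}
    (hu : ∀ᶠ z in 𝓝 β, ContinuousAt u z) (hl : ContinuousAt l β)
    (h : ∀ᶠ z in 𝓝 β, p (l z) = u z) : ∀ᶠ z in 𝓝 β, ContinuousAt l z := by
  obtain ⟨φ, hφ, hφp⟩ := hp (l β)
  have h1 : ∀ᶠ z in 𝓝 β, l z ∈ φ.source := hl.eventually_mem (φ.open_source.mem_nhds hφ)
  have h2 : ∀ᶠ z in 𝓝 β, l z = φ.symm (u z) := by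
    filter_upwards [h1, h] with z hz1 hz2
    rw [← hz2, hφp, φ.left_inv hz1]
  filter_upwards [h1, h, h2.eventually_nhds, hu] with z hz1 hz2 hz3 hz4
  have h3 : ContinuousAt (fun z => φ.symm (u z)) z := by
    refine ContinuousAt.comp (g := φ.symm) (f := u) ?_ hz4
    refine φ.continuousAt_symm ?_
    rw [← hz2, hφp]
    exact φ.map_source hz1
  exact h3.congr (hz3.mono fun _ h => h.symm)

/-- two lifts with the same value at a point agree near this point -/
lemma lift_unique (hp : IsLocalHomeomorph p) {l l' : S → E} {β : S} (hl : ContinuousAt l β)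
    (hl' : ContinuousAt l' β) (h0 : l β = l' β) (h : ∀ᶠ z in 𝓝 β, p (l z) = p (l' z)) :
    l =ᶠ[𝓝 β] l' := by
  obtain ⟨φ, hφ, hφp⟩ := hp (l β)
  have h1 : ∀ᶠ z in 𝓝 β, l z ∈ φ.source := hl.eventually_mem (φ.open_source.mem_nhds hφ)
  have h2 : ∀ᶠ z in 𝓝 β, l' z ∈ φ.source :=
    hl'.eventually_mem (φ.open_source.mem_nhds (h0 ▸ hφ))
  filter_upwards [h1, h2, h] with z hz1 hz2 hz3
  rw [hφp] at hz3
  exact φ.injOn hz1 hz2 hz3

/-- existence of a local lift -/
lemma exists_lift (hp : IsLocalHomeomorph p) {u : S → X} {β : S} {y : E} (hu : ContinuousAt u β)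
    (hy : p y = u β) : ∃ l : S → E, ContinuousAt l β ∧ l β = y ∧ ∀ᶠ z in 𝓝 β, p (l z) = u z := by
  obtain ⟨φ, hφ, hφp⟩ := hp y
  have hm : u β ∈ φ.target := by rw [← hy, hφp]; exact φ.map_source hφ
  refine ⟨fun z => φ.symm (u z), ContinuousAt.comp (g := φ.symm) (f := u)
    (φ.continuousAt_symm hm) hu, ?_, ?_⟩
  · simp only [← hy, hφp]
    exact φ.left_inv hφ
  · filter_upwards [hu.eventually_mem (φ.open_target.mem_nhds hm)] with z hz
    rw [hφp, φ.right_inv hz]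

end top

section VE

variable {n R m : ℕ} {X E : Type} [TopologicalSpace X] [ChartedSpace (Cm n) X]
  [TopologicalSpace E] {p : E → X} {H : Type} [NormedAddCommGroup H] [InnerProductSpace ℂ H]
  {v : E → Chart n X → (Fin R → Cm n) → H} [IsManifold 𝓘(ℂ, Cm n) ω X]

lemma contMDiffAt_ev {V : Type*} [NormedAddCommGroup V] [NormedSpace ℂ V] {g : V → X} {z : V}
    (h : ContMDiffAt 𝓘(ℂ, V) 𝓘(ℂ, Cm n) ω g z) :
    ∀ᶠ z' in 𝓝 z, ContMDiffAt 𝓘(ℂ, V) 𝓘(ℂ, Cm n) ω g z' :=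
  (contMDiffAt_iff_contMDiffAt_nhds (by simp)).1 h

lemma VE_analyticAt' (hv : HForm n R m p H v) {ψ : Cm R → E} {z : Cm R} (hψ : ContinuousAt ψ z)
    (hh : ContMDiffAt 𝓘(ℂ, Cm R) 𝓘(ℂ, Cm n) ω (fun z => p (ψ z)) z) :
    AnalyticAt ℂ (VE p v ψ) z := by
  set e : Chart n X := chartAt (Cm n) (p (ψ z)) with hedef
  have he : At e (p (ψ z)) := ⟨chart_mem_atlas _ _, mem_chart_source _ _⟩
  refine (pull_an hv hψ he (analyticAt_chart_map hh he)).congr ?_
  have h1 : ∀ᶠ z' in 𝓝 z, p (ψ z') ∈ e.source :=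
    hh.continuousAt.eventually_mem (e.open_source.mem_nhds he.2)
  filter_upwards [h1, contMDiffAt_ev hh] with z' hz' hz2
  exact (VE_eq hv hz2 ⟨he.1, hz'⟩).symm

omit [IsManifold 𝓘(ℂ, Cm n) ω X] [TopologicalSpace E] [NormedAddCommGroup H]
  [InnerProductSpace ℂ H] in
lemma VE_congr {ψ ψ' : Cm R → E} {z : Cm R} (h : ψ =ᶠ[𝓝 z] ψ') : VE p v ψ z = VE p v ψ' z := by
  unfold VE pull
  have h0 := h.self_of_nhds
  have h1 : (fun z' => chartAt (Cm n) (p (ψ' z)) (p (ψ z'))) =ᶠ[𝓝 z]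
      fun z' => chartAt (Cm n) (p (ψ' z)) (p (ψ' z')) := by
    filter_upwards [h] with z' hz'
    rw [hz']
  rw [h0, h1.fderiv_eq]

/-- pull-back of `v` along a composition -/
lemma VE_comp (hv : HForm n R m p H v) {l : Cm R → E} {φ : Cm R → Cm R} {z : Cm R}
    (hφ : AnalyticAt ℂ φ z)
    (hh : ContMDiffAt 𝓘(ℂ, Cm R) 𝓘(ℂ, Cm n) ω (fun z => p (l z)) (φ z)) :
    VE p v (fun z => l (φ z)) z = (fderiv ℂ φ z).det ^ m • VE p v l (φ z) := by
  set e : Chart n X := chartAt (Cm n) (p (l (φ z))) with hedef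
  have he : At e (p (l (φ z))) := ⟨chart_mem_atlas _ _, mem_chart_source _ _⟩
  have hha : AnalyticAt ℂ (fun z' => e (p (l z'))) (φ z) := analyticAt_chart_map hh he
  unfold VE pull
  have h1 : fderiv ℂ (fun z' => e (p (l (φ z')))) z =
      (fderiv ℂ (fun z' => e (p (l z'))) (φ z)).comp (fderiv ℂ φ z) :=
    fderiv_comp (𝕜 := ℂ) z (g := fun z' => e (p (l z'))) hha.differentiableAt
      hφ.differentiableAt
  rw [h1]
  exact hv.lin he _ _

omit [IsManifold 𝓘(ℂ, Cm n) ω X] in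
/-- pull-back of `v` along a translated lift -/
lemma VE_smul {Γ : Type} [Group Γ] [MulAction Γ E] (hinv : ∀ (g : Γ) y, p (g • y) = p y)
    {g : Γ} {U : H →ₗᵢ[ℂ] H} (hU : ∀ y e, At e (p y) → ∀ ξ, v (g • y) e ξ = U (v y e ξ))
    {l : Cm R → E} {z : Cm R} : VE p v (fun z => g • l z) z = U (VE p v l z) := by
  unfold VE pull
  simp only [hinv]
  exact hU _ _ ⟨chart_mem_atlas _ _, mem_chart_source _ _⟩ _

end VE

end Vale.Agent.P284.H837
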