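import Vale.Agent.P284.H451.CntS

/-!
# P284 (helper837), T1': the trace of a section of `K_Z^k` over a ball (statement)

`Z`, `N`, `V`, `G` as in `H451.CntStmt`: `G b` is a set of germs at `b` of branches, closed under
continuation, at most `d` of them for all `b` of the ball, and exactly `d` on a dense set.  The trace
`b ↦ ∑ q^* σ` (`q` in `G b`) of a section `σ` of `K_Z^k` which is small where `N` is small is holomorphic.
-/

open scoped Manifold ContDiff Topology ComplexOrder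
open Filter Set Metric

noncomputable section

namespace Vale.Agent.P284.H837

open Vale.Agent.P272.K Vale.Agent.P272.KOD Vale.Agent.P284.H812 Vale.Agent.P284.H451

section
variable {n k : ℕ} {Z : Type*} [TopologicalSpace Z] [ChartedSpace (Cm n) Z]

/-- the value at `b` of the pull-back of `σ` by the map `f` -/
def fval (σ : PSec n k Z) (b : Cm n) (f : Cm n → Z) : ℂ :=
  σ.coeff (chartAt (Cm n) (f b)) (chartAt (Cm n) (f b) (f b)) *
    (fderiv ℂ (fun z => chartAt (Cm n) (f b) (f z)) b).det ^ k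

lemma fval_congr (σ : PSec n k Z) (b : Cm n) {f f' : Cm n → Z} (h : f =ᶠ[𝓝 b] f') :
    fval σ b f = fval σ b f' := by
  have h0 := h.self_of_nhds
  have h1 : (fun z => chartAt (Cm n) (f b) (f z)) =ᶠ[𝓝 b] fun z => chartAt (Cm n) (f b) (f' z) := by
    filter_upwards [h] with z hz
    rw [hz]
  unfold fval
  rw [h1.fderiv_eq, h0]

/-- the value at `b` of the pull-back of `σ` by the germ `g` -/
def gval (σ : PSec n k Z) (b : Cm n) (g : Germ (𝓝 b) Z) : ℂ :=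
  g.liftOn (fval σ b) fun _ _ h => fval_congr σ b h

@[simp] lemma gval_coe (σ : PSec n k Z) (b : Cm n) (f : Cm n → Z) :
    gval σ b (f : Germ (𝓝 b) Z) = fval σ b f := rfl

/-- the trace -/
def trv (G : ∀ b : Cm n, Set (Germ (𝓝 b) Z)) (σ : PSec n k Z) (b : Cm n) : ℂ :=
  ∑ᶠ g ∈ G b, gval σ b g

end

/-- **TR** over a ball -/
def TrStmt : Prop :=
  ∀ (n m : ℕ) (_ : 1 ≤ n) (_ : 1 ≤ m) (Z : Type) [TopologicalSpace Z] [T2Space Z]
    [CompactSpace Z] [ConnectedSpace Z] [ChartedSpace (Cm n) Z] [IsManifold 𝓘(ℂ, Cm n) ω Z]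
    (w : Chart n Z → Cm n → ℝ) (_ : IsCanonicalMetric w)
    (_ : ∀ e x, At e x → (cHess (w e) (e x)).PosDef)
    (H : Type) [NormedAddCommGroup H] [InnerProductSpace ℂ H] [CompleteSpace H]
    (N : Chart n Z → Cm n → ℝ) (_ : HMet n m Z H N) (_ : HImm n Z H N)
    (H' : Type) [NormedAddCommGroup H'] [InnerProductSpace ℂ H'] [CompleteSpace H']
    (V : Cm n → H') (b₀ : Cm n) (r₀ r₁ : ℝ) (_ : 0 < r₀) (_ : r₀ < r₁)
    (_ : DifferentiableOn ℂ V (ball b₀ r₁))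
    (_ : ∀ b ∈ ball b₀ r₁, V b ≠ 0 ∧ ∀ (ξ : Cm n) (c : ℂ), fderiv ℂ V b ξ = c • V b → ξ = 0)
    (G : ∀ b : Cm n, Set (Germ (𝓝 b) Z)) (_ : BrFam m N V (ball b₀ r₀) G) (d : ℕ)
    (_ : ∀ b ∈ ball b₀ r₀, (G b).encard ≤ d)
    (_ : ball b₀ r₀ ⊆ closure {b | b ∈ ball b₀ r₀ ∧ (G b).encard = d})
    (k : ℕ) (σ : PSec n k Z) (C : ℝ) (l : ℕ) (_ : 1 ≤ l)
    (_ : ∀ e x, At e x → (‖σ.coeff e (e x)‖ ^ 2) ^ m ≤
      C * N e (e x) ^ k * (N e (e x) * Real.exp (-(m : ℝ) * w e (e x))) ^ l),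
    DifferentiableOn ℂ (trv G σ) (ball b₀ r₀)

end Vale.Agent.P284.H837
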