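import Vale.Agent.P284.H894.F.Defs
import Vale.Agent.P284.H213.Q.FolExt
import Vale.Agent.P284.H213.Q.FolQuo
import Vale.Agent.P284.H248.Defs

/-!
# P284 (helper837): finitely generated virtually abelian groups are amenable
-/

open scoped Topology Pointwise
open Filter Set Metric

noncomputable section

namespace Vale.Agent.P284.H837

open Vale.Agent.P284.H894.G Vale.Agent.P284.H894.F Vale.Agent.P284.H213.Q
  Vale.Agent.P284.H446.QC

theorem folner_fin {A : Type*} [Group A] [Finite A] : Folner A := by
  intro S _ ε hε
  refine ⟨univ, finite_univ, univ_nonempty, fun s _ => ?_⟩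
  have : (s • (univ : Set A)) \ univ = ∅ := by simp
  rw [this, Set.ncard_empty, Nat.cast_zero]
  positivity

/-- finitely generated commutative groups are amenable -/
theorem folner_comm {A : Type*} [CommGroup A] (S : Finset A)
    (hS : Subgroup.closure (S : Set A) = ⊤) : Folner A := by
  classical
  let s : Fin S.card → A := fun i => (S.equivFin.symm i : A)
  let f : Multiplicative (Fin S.card → ℤ) →* A :=
    { toFun := fun v => ∏ i, s i ^ (Multiplicative.toAdd v i)
      map_one' := by simp
      map_mul' := by
        intro a b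
        simp [zpow_add, Finset.prod_mul_distrib] }
  have hf : Function.Surjective f := by
    rw [← MonoidHom.range_eq_top, eq_top_iff, ← hS, Subgroup.closure_le]
    intro a ha
    refine ⟨Multiplicative.ofAdd (Pi.single (S.equivFin ⟨a, ha⟩) 1), ?_⟩
    show ∏ i, s i ^ ((Pi.single (S.equivFin ⟨a, ha⟩) (1 : ℤ) : Fin S.card → ℤ) i) = a
    rw [Finset.prod_eq_single (S.equivFin ⟨a, ha⟩)]
    · simp [s]
    · intro b _ hb
      rw [Pi.single_eq_of_ne hb, zpow_zero]
    · intro h
      exact absurd (Finset.mem_univ _) h
  exact folner_of_surjective f hf (folner_zpow _)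

/-- finitely generated virtually abelian groups are amenable -/
theorem folner_of_virtAbelianRank {Q : Type*} [Group Q] {m : ℕ} (h : VirtAbelianRank Q m) :
    Folner Q := by
  classical
  obtain ⟨A, hfi, hc, S, -, hS⟩ := h
  have hAF : Folner A := by
    let _ : CommGroup A := { (inferInstance : Group A) with
      mul_comm := fun a b => Subtype.ext (hc a a.2 b b.2) }
    have hSA : ∀ s ∈ S, s ∈ A := fun s hs => hS ▸ Subgroup.subset_closure hs
    refine folner_comm (S.attach.image fun s => (⟨s.1, hSA s.1 s.2⟩ : A)) ?_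
    rw [eq_top_iff]
    rintro ⟨a, ha⟩ -
    have h1 : a ∈ (Subgroup.closure ((S.attach.image fun s => (⟨s.1, hSA s.1 s.2⟩ : A)) : Set A)).map
        A.subtype := by
      rw [MonoidHom.map_closure]
      have h2 : (A.subtype '' ((S.attach.image fun s => (⟨s.1, hSA s.1 s.2⟩ : A) : Finset A) : Set A)) =
          (S : Set Q) := by
        ext x
        constructor
        · rintro ⟨y, hy, rfl⟩
          rw [Finset.mem_coe, Finset.mem_image] at hy
          obtain ⟨s, -, rfl⟩ := hy
          exact s.2
        · intro hx
          exact ⟨⟨x, hSA x hx⟩, Finset.mem_coe.2 (Finset.mem_image.2 ⟨⟨x, hx⟩, Finset.mem_attach _ _, rfl⟩), rfl⟩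
      rw [h2, hS]
      exact ha
    obtain ⟨b, hb, hba⟩ := h1
    have : b = ⟨a, ha⟩ := Subtype.ext hba
    exact this ▸ hb
  have hN : A.normalCore.FiniteIndex := inferInstance
  refine folner_ext (QuotientGroup.mk' A.normalCore) (QuotientGroup.mk'_surjective _) ?_ ?_
  · have : Finite (Q ⧸ A.normalCore) := Subgroup.finite_quotient_of_finiteIndex
    exact folner_fin
  · rw [QuotientGroup.ker_mk']
    have h1 : Folner (A.normalCore.subgroupOf A) :=
      folner_subgroup hAF _
    exact folner_iso h1 (Subgroup.subgroupOfEquivOfLe A.normalCore_le)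

/-- a group is amenable if its finitely generated subgroups are -/
theorem folner_local {Q : Type*} [Group Q]
    (h : ∀ S : Set Q, S.Finite → Folner (Subgroup.closure S)) : Folner Q := by
  intro S hS ε hε
  obtain ⟨F, hF, hne, hFs⟩ := h S hS ((fun x : Subgroup.closure S => (x : Q)) ⁻¹' S)
    (hS.preimage Subtype.val_injective.injOn) ε hε
  refine ⟨(fun x : Subgroup.closure S => (x : Q)) '' F, hF.image _, hne.image _, fun s hs => ?_⟩
  have h1 := hFs ⟨s, Subgroup.subset_closure hs⟩ hs
  have h2 : (s • ((fun x : Subgroup.closure S => (x : Q)) '' F)) \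
      ((fun x : Subgroup.closure S => (x : Q)) '' F) =
      (fun x : Subgroup.closure S => (x : Q)) ''
        (((⟨s, Subgroup.subset_closure hs⟩ : Subgroup.closure S) • F) \ F) := by
    rw [image_sdiff Subtype.val_injective]
    congr 1
    ext x
    simp only [mem_smul_set, mem_image]
    constructor
    · rintro ⟨y, ⟨z, hz, rfl⟩, rfl⟩
      exact ⟨_, ⟨z, hz, rfl⟩, rfl⟩
    · rintro ⟨y, ⟨z, hz, rfl⟩, rfl⟩
      exact ⟨_, ⟨z, hz, rfl⟩, rfl⟩
  rw [h2, Set.ncard_image_of_injective _ Subtype.val_injective,
    Set.ncard_image_of_injective _ Subtype.val_injective]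
  exact h1

/-- virtually abelian groups are amenable -/
theorem folner_of_virtuallyAbelian {Q : Type*} [Group Q]
    (h : Vale.Agent.P284.H248.VirtuallyAbelian Q) : Folner Q := by
  classical
  obtain ⟨A, hfi, hc⟩ := h
  refine folner_local fun S hS => ?_
  have hfg : Group.FG (Subgroup.closure S) := by
    have := hS.to_subtype
    exact Group.closure_finite_fg S
  have h1 : (A.subgroupOf (Subgroup.closure S)).FiniteIndex := inferInstance
  obtain ⟨T, hT⟩ := (Group.fg_iff_subgroup_fg (A.subgroupOf (Subgroup.closure S))).1 inferInstance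
  exact folner_of_virtAbelianRank (m := T.card) ⟨A.subgroupOf (Subgroup.closure S), h1,
    fun a ha b hb => Subtype.ext (hc a ha b hb), T, le_rfl, hT⟩

end Vale.Agent.P284.H837
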