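import Vale.Agent.P284.H837.Sp5
import Vale.Agent.P284.H553.M1
import Vale.Agent.P284.H279.M2
import Vale.Agent.P284.H998.M3
import Vale.Agent.P284.H553.M4
import Vale.Agent.P284.H275.M5
import Vale.Agent.P284.H221.M6
import Vale.Agent.P284.H625.M7
import Vale.Agent.P284.H451.CntQ
import Vale.Agent.P284.H383.Tr.TrF

/-!
# P284 (helper837), T1': `SpStmt`, unconditional
-/

noncomputable section

namespace Vale.Agent.P284.H837

/-- **SP.** A special projective manifold has no Hilbert space valued natural form of full rank with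
the local finiteness property on a Galois covering. -/
theorem spStmt : SpStmt :=
  sp_of Vale.Agent.P284.H553.M1.m1Stmt Vale.Agent.P284.H279.M2.m2Stmt Vale.Agent.P284.H998.M3.m3
    Vale.Agent.P284.H553.m4Stmt Vale.Agent.P284.H275.m5 Vale.Agent.P284.H221.m6Stmt
    Vale.Agent.P284.H625.M7.m7Stmt Vale.Agent.P284.H451.cntStmt Vale.Agent.P284.H383.Tr.trStmt

end Vale.Agent.P284.H837
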