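import Vale.Agent.P284.H837.Sp
import Vale.Agent.P284.H174.AlbD
import Vale.Agent.P284.H174.EtSp
import Vale.Agent.P284.H224.Sp
import Vale.Agent.P284.H136.Line2
import Vale.Agent.P284.H501.Core.Uni
import Vale.Agent.P284.H573.PT.PotS
import Vale.Agent.P284.H378.Fin
import Vale.Agent.P284.H213.Q.AsmQ

/-!
# P284 (helper837), special manifolds: the assembly, from `NS2Stmt`

`X` projective, all finite étale coverings special in the sense of Campana (`FSp`).
-/

open scoped Manifold ContDiff Topology ComplexConjugate
open Filter Set

noncomputable section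

namespace Vale.Agent.P284.H837

open Vale.Agent.P272.K Vale.Agent.P284.H248 Vale.Agent.P284.H894 Vale.Agent.P284.H894.G
  Vale.Agent.P284.H894.V Vale.Agent.P284.H894.W Vale.Agent.P284.H894.F Vale.Agent.P284.H998
  Vale.Agent.P284.H213.Q Vale.Agent.P284.H174 Vale.Agent.P284.H501.Core

/-- **ALB+U** for special manifolds -/
theorem albSp : AlbUD fspC := albSp_of spStmt

/-- **MF** for special manifolds: the Albanese map of a special manifold has connected fibres -/
theorem mfSp : MFD fspC := H224.mfSp_of spStmt H136.Rat.lineStmt

/-- **CORE** for special manifolds -/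
theorem coreSp (hNS : NS2Stmt) : CoreD fspC :=
  coreSp_of H573.PT.limAt hNS H378.cStmt H378.lfStmt spStmt

/-- **T1'**: amenable quotients of the fundamental group of a projective manifold all of whose finite
étale coverings are special -/
theorem mainPiQ_sp (hNS : NS2Stmt) : MainPiQ fspC :=
  mainPiQ_of (mainSCQ_of etSt_fsp albSp mfSp (coreSp hNS))

end Vale.Agent.P284.H837
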