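import Vale.Agent.P284.H837.Br0
import Mathlib.Topology.Homotopy.Lifting
import Mathlib.Analysis.Convex.Contractible

/-!
# P284 (helper837), T1': local tools, part 2 (lifts over balls, identity theorem for maps)
-/

open scoped Manifold ContDiff Topology
open Filter Set Metric

noncomputable section

namespace Vale.Agent.P284.H837

open Vale.Agent.P272.K Vale.Agent.P284.H573 Vale.Agent.P284.H812

/-- lifts over balls -/
theorem exists_lift_ball {X E V : Type*} [TopologicalSpace X] [TopologicalSpace E]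
    [NormedAddCommGroup V] [NormedSpace ℝ V] {p : E → X} (hp : IsCoveringMap p) {u : V → X}
    {ζ : V} {s : ℝ} (hs : 0 < s) (hu : ContinuousOn u (ball ζ s)) {y : E} (hy : p y = u ζ) :
    ∃ l : V → E, ContinuousOn l (ball ζ s) ∧ l ζ = y ∧ ∀ z ∈ ball ζ s, p (l z) = u z := by
  classical
  have h1 : ContractibleSpace (ball ζ s) := (convex_ball ζ s).contractibleSpace
    ⟨ζ, mem_ball_self hs⟩
  have h2 : LocallyPathConnectedSpace (ball ζ s) := isOpen_ball.locallyPathConnectedSpace
  obtain ⟨L, ⟨hL0, hL⟩, -⟩ := hp.existsUnique_continuousMap_lifts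
    (⟨fun z : ball ζ s => u z, continuousOn_iff_continuous_restrict.1 hu⟩ : C(ball ζ s, X))
    ⟨ζ, mem_ball_self hs⟩ y hy
  refine ⟨fun z => if h : z ∈ ball ζ s then L ⟨z, h⟩ else y, ?_, ?_, ?_⟩
  · rw [continuousOn_iff_continuous_restrict]
    have h3 : (ball ζ s).domRestrict (fun z => if h : z ∈ ball ζ s then L ⟨z, h⟩ else y) = L := by
      funext z
      exact dif_pos z.2
    rw [h3]
    exact L.continuous
  · simp only [mem_ball_self hs, dif_pos]
    exact hL0
  · intro z hz
    simp only [hz, dif_pos]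
    exact congrFun hL ⟨z, hz⟩

/-- **Identity theorem** for holomorphic maps to a manifold -/
theorem ident {d : ℕ} {M : Type*} [TopologicalSpace M] [T2Space M] [ChartedSpace (Cm d) M]
    [IsManifold 𝓘(ℂ, Cm d) ω M]
    {V : Type*} [NormedAddCommGroup V] [NormedSpace ℂ V] {u u' : V → M} {D : Set V}
    (hDc : IsPreconnected D)
    (hu : ∀ z ∈ D, ContMDiffAt 𝓘(ℂ, V) 𝓘(ℂ, Cm d) ω u z)
    (hu' : ∀ z ∈ D, ContMDiffAt 𝓘(ℂ, V) 𝓘(ℂ, Cm d) ω u' z) {z₀ : V} (hz₀ : z₀ ∈ D)
    (h : u =ᶠ[𝓝 z₀] u') {z : V} (hz : z ∈ D) : u =ᶠ[𝓝 z] u' := by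
  set S : Set V := {z | u =ᶠ[𝓝 z] u'} with hS
  have hSo : IsOpen S := by
    rw [isOpen_iff_mem_nhds]
    intro w hw
    exact (show ∀ᶠ w' in 𝓝 w, u w' = u' w' from hw).eventually_nhds
  refine hDc.subset_of_closure_inter_subset hSo ⟨z₀, hz₀, h⟩ ?_ hz
  rintro w ⟨hw, hwD⟩
  have c1 := (hu w hwD).continuousAt
  have c2 := (hu' w hwD).continuousAt
  have h0 : u w = u' w := by
    by_contra hne
    obtain ⟨w', hw', hw2⟩ := mem_closure_iff_frequently.1 hw |>.and_eventually
      ((c1.prodMk c2).eventually_mem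
        ((isOpen_ne_fun continuous_fst continuous_snd).mem_nhds (show (u w, u' w) ∈
          {x : M × M | x.1 ≠ x.2} from hne)) ) |>.exists
    exact hw2 (show u w' = u' w' from (show u =ᶠ[𝓝 w'] u' from hw').self_of_nhds)
  set c : Chart d M := chartAt (Cm d) (u w) with hc
  have hcat : At c (u w) := ⟨chart_mem_atlas _ _, mem_chart_source _ _⟩
  have hcat' : At c (u' w) := h0 ▸ hcat
  have a1 : AnalyticAt ℂ (fun z' => c (u z')) w :=
    (contMDiffAt_iff_contDiffAt.1
      ((chart_contMDiffAt (n := d) (X := M) hcat).comp w (hu w hwD))).analyticAt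
  have a2 : AnalyticAt ℂ (fun z' => c (u' z')) w :=
    (contMDiffAt_iff_contDiffAt.1
      ((chart_contMDiffAt (n := d) (X := M) hcat').comp w (hu' w hwD))).analyticAt
  have a3 : AnalyticAt ℂ (fun z' => c (u z') - c (u' z')) w := a1.sub a2
  obtain ⟨r, hr, hball⟩ := Metric.eventually_nhds_iff_ball.1 (a3.eventually_analyticAt.and
    ((c1.eventually_mem (c.open_source.mem_nhds hcat.2)).and
      (c2.eventually_mem (c.open_source.mem_nhds hcat'.2))))
  obtain ⟨w', hw'B, hw'S⟩ := mem_closure_iff.1 hw (ball w r) isOpen_ball (mem_ball_self hr)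
  have h1 : (fun z' => c (u z') - c (u' z')) =ᶠ[𝓝 w'] 0 := by
    filter_upwards [hw'S] with z' hz'
    rw [hz', sub_self]; rfl
  have h2 : EqOn (fun z' => c (u z') - c (u' z')) 0 (ball w r) :=
    AnalyticOnNhd.eqOn_zero_of_preconnected_of_eventuallyEq_zero
      (fun z' hz' => (hball z' hz').1) (convex_ball w r).isPreconnected hw'B h1
  filter_upwards [ball_mem_nhds w hr] with z' hz'
  have h3 := h2 hz'
  simp only [Pi.zero_apply, sub_eq_zero] at h3
  exact c.injOn (hball z' hz').2.1 (hball z' hz').2.2 h3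

end Vale.Agent.P284.H837
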