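import Vale.Agent.P284.H837.Br0b
import Vale.Agent.P284.H837.TrS
import Vale.Agent.P284.H553.Seg2

/-!
# P284 (helper837), T1': branches
-/

open scoped Manifold ContDiff Topology
open Filter Set Metric

noncomputable section

namespace Vale.Agent.P284.H837

open Vale.Agent.P272.K Vale.Agent.P272.KOD Vale.Agent.P284.H573 Vale.Agent.P284.H812
  Vale.Agent.P284.H451 Vale.Agent.P284.H553 Vale.Agent.P284.H619

variable {n R q m : ℕ} {X E Z : Type} [TopologicalSpace X] [ChartedSpace (Cm n) X]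
  [TopologicalSpace E] [TopologicalSpace Z] [ChartedSpace (Cm R) Z] {p : E → X}
  {H : Type} [NormedAddCommGroup H] [InnerProductSpace ℂ H]
  {v : E → Chart n X → (Fin R → Cm n) → H} {F : E → Cm q} {j : Z → X}

/-- `F` is holomorphic. -/
def HolF (n : ℕ) {X E : Type} [TopologicalSpace X] [ChartedSpace (Cm n) X] [TopologicalSpace E]
    {q : ℕ} (p : E → X) (F : E → Cm q) : Prop :=
  ∀ (y : E) (e : Chart n X), At e (p y) → ∃ f : Cm n → Cm q,
    (∀ᶠ y' in 𝓝 y, F y' = f (e (p y'))) ∧ AnalyticAt ℂ f (e (p y))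

/-- `f` is (the germ at `β` of) a branch: a lift `l` of `j ∘ f` to `E` pulls `v` back to `γ` and `F` to
`t`. -/
structure BrL (p : E → X) (v : E → Chart n X → (Fin R → Cm n) → H) (F : E → Cm q) (j : Z → X)
    (γ : Cm R → H) (t : Cm R → Cm q) (β : Cm R) (f : Cm R → Z) (l : Cm R → E) : Prop where
  hol : ContMDiffAt 𝓘(ℂ, Cm R) 𝓘(ℂ, Cm R) ω f β
  cont : ContinuousAt l β
  lift : ∀ᶠ z in 𝓝 β, p (l z) = j (f z)
  val : ∀ᶠ z in 𝓝 β, VE p v l z = γ z
  fval : ∀ᶠ z in 𝓝 β, F (l z) = t z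

/-- the germs of branches at `β` -/
def BrG (p : E → X) (v : E → Chart n X → (Fin R → Cm n) → H) (F : E → Cm q) (j : Z → X)
    (γ : Cm R → H) (t : Cm R → Cm q) (β : Cm R) : Set (Germ (𝓝 β) Z) :=
  {g | ∃ (f : Cm R → Z) (l : Cm R → E), BrL p v F j γ t β f l ∧ g = (f : Germ (𝓝 β) Z)}

section
variable [IsManifold 𝓘(ℂ, Cm n) ω X] [IsManifold 𝓘(ℂ, Cm R) ω Z]
  {γ : Cm R → H} {t : Cm R → Cm q} {β : Cm R} {f : Cm R → Z} {l : Cm R → E}

omit [IsManifold 𝓘(ℂ, Cm n) ω X] [IsManifold 𝓘(ℂ, Cm R) ω Z] in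
lemma BrL.hol_lift (h : BrL p v F j γ t β f l) (hj : ContMDiff 𝓘(ℂ, Cm R) 𝓘(ℂ, Cm n) ω j) :
    ContMDiffAt 𝓘(ℂ, Cm R) 𝓘(ℂ, Cm n) ω (fun z => p (l z)) β :=
  ((hj (f β)).comp β h.hol).congr_of_eventuallyEq h.lift

omit [IsManifold 𝓘(ℂ, Cm n) ω X] in
lemma BrL.ev (h : BrL p v F j γ t β f l) (hj : ContMDiff 𝓘(ℂ, Cm R) 𝓘(ℂ, Cm n) ω j)
    (hp : IsLocalHomeomorph p) : ∀ᶠ z in 𝓝 β, BrL p v F j γ t z f l := by
  have h1 := contMDiffAt_ev h.hol
  have h2 : ∀ᶠ z in 𝓝 β, ContinuousAt l z := by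
    refine lift_cont hp (u := fun z => j (f z)) ?_ h.cont h.lift
    filter_upwards [h1] with z hz
    exact (hj.continuous.continuousAt).comp hz.continuousAt
  filter_upwards [h1, h2, h.lift.eventually_nhds, h.val.eventually_nhds,
    h.fval.eventually_nhds] with z a1 a2 a3 a4 a5
  exact ⟨a1, a2, a3, a4, a5⟩

omit [IsManifold 𝓘(ℂ, Cm n) ω X] [IsManifold 𝓘(ℂ, Cm R) ω Z] in
lemma BrL.congr (h : BrL p v F j γ t β f l) {f' : Cm R → Z} {l' : Cm R → E}
    (hf : f' =ᶠ[𝓝 β] f) (hl : l' =ᶠ[𝓝 β] l) : BrL p v F j γ t β f' l' := by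
  refine ⟨h.hol.congr_of_eventuallyEq hf, h.cont.congr hl.symm, ?_, ?_, ?_⟩
  · filter_upwards [h.lift, hf, hl] with z a1 a2 a3
    rw [a3, a2, a1]
  · filter_upwards [h.val, hl.eventuallyEq_nhds] with z a1 a2
    rw [VE_congr a2, a1]
  · filter_upwards [h.fval, hl] with z a1 a2
    rw [a2, a1]

/-- a branch is a branch in the sense of helper812 -/
lemma BrL.isBranch (h : BrL p v F j γ t β f l) (hv : HForm n R m p H v)
    (hj : ContMDiff 𝓘(ℂ, Cm R) 𝓘(ℂ, Cm n) ω j) (hp : IsLocalHomeomorph p)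
    (hps : Function.Surjective p) {c : Chart R Z} (hc : At c (f β)) :
    IsBranch m (NZ v hps j) γ β c (fun z => c (f z)) where
  mem := hc.1
  tgt := hc.mem_target
  an := analyticAt_chart_map h.hol hc
  eq := by
    have h1 : ∀ᶠ z in 𝓝 β, f z ∈ c.source :=
      h.hol.continuousAt.eventually_mem (c.open_source.mem_nhds hc.2)
    filter_upwards [h.ev hj hp, h1] with z hz hz1
    have hcz : At c (f z) := ⟨hc.1, hz1⟩
    have hci : c.symm (c (f z)) = f z := hcz.left_inv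
    set e : Chart n X := chartAt (Cm n) (p (l z)) with hedef
    have he : At e (p (l z)) := ⟨chart_mem_atlas _ _, mem_chart_source _ _⟩
    have hpl : p (l z) = j (f z) := hz.lift.self_of_nhds
    have hej : At e (j (c.symm (c (f z)))) := by rw [hci, ← hpl]; exact he
    rw [NZ_eq hv hps (hj _) hc.1 hcz.mem_target (y := l z) (e := e) (by rw [hci, hpl]) hej]
    rw [← hz.val.self_of_nhds]
    have h2 : VE p v l z = (fderiv ℂ (fun z => c (f z)) z).det ^ m •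
        v (l z) e (fun i => fderiv ℂ (fun z' => e (j (c.symm z'))) (c (f z)) (Pi.single i 1)) := by
      rw [← hv.lin he]
      unfold VE pull
      rw [← hedef]
      have h3 : (fun z' => e (p (l z'))) =ᶠ[𝓝 z] fun z' => e (j (c.symm (c (f z')))) := by
        have h4 : ∀ᶠ z' in 𝓝 z, f z' ∈ c.source :=
          hz.hol.continuousAt.eventually_mem (c.open_source.mem_nhds hz1)
        filter_upwards [hz.lift, h4] with z' a1 a2
        rw [a1, c.left_inv a2]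
      have h5 : fderiv ℂ (fun z' => e (p (l z'))) z =
          (fderiv ℂ (fun z' => e (j (c.symm z'))) (c (f z))).comp
            (fderiv ℂ (fun z => c (f z)) z) := by
        rw [h3.fderiv_eq]
        exact fderiv_comp (𝕜 := ℂ) z (g := fun z' => e (j (c.symm z')))
          (analyticAt_map (hj _) hc.1 hcz.mem_target hej).differentiableAt
          (analyticAt_chart_map hz.hol hcz).differentiableAt
      rw [h5]
      rfl
    rw [h2, norm_smul, norm_pow]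
    ring

omit [IsManifold 𝓘(ℂ, Cm n) ω X] [IsManifold 𝓘(ℂ, Cm R) ω Z] in
lemma mem_BrG_coe : (f : Germ (𝓝 β) Z) ∈ BrG p v F j γ t β ↔ ∃ l, BrL p v F j γ t β f l := by
  constructor
  · rintro ⟨f', l, h, hf⟩
    have h1 : f =ᶠ[𝓝 β] f' := Germ.coe_eq.1 hf
    exact ⟨l, h.congr h1 (Eventually.of_forall fun _ => rfl)⟩
  · rintro ⟨l, h⟩
    exact ⟨f, l, h, rfl⟩

/-- `F` along a lift is analytic -/
lemma HolF.an (hF : HolF n p F) {l : Cm R → E} {z : Cm R} (hl : ContinuousAt l z)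
    (hh : ContMDiffAt 𝓘(ℂ, Cm R) 𝓘(ℂ, Cm n) ω (fun z => p (l z)) z) :
    AnalyticAt ℂ (fun z => F (l z)) z := by
  have he : At (chartAt (Cm n) (p (l z)) : Chart n X) (p (l z)) :=
    ⟨chart_mem_atlas _ _, mem_chart_source _ _⟩
  obtain ⟨g, hg, hga⟩ := hF (l z) _ he
  have h1 : AnalyticAt ℂ (fun z' => g ((chartAt (Cm n) (p (l z)) : Chart n X) (p (l z')))) z :=
    AnalyticAt.fun_comp (g := g) hga (analyticAt_chart_map hh he)
  refine h1.congr ?_
  filter_upwards [hl.eventually hg] with z' hz'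
  exact hz'.symm

/-- **continuation of branches** -/
theorem BrG_cont (hv : HForm n R m p H v) (hj : ContMDiff 𝓘(ℂ, Cm R) 𝓘(ℂ, Cm n) ω j)
    (hp : IsCoveringMap p) (hF : HolF n p F) {ζ : Cm R} {s : ℝ} {u : Cm R → Z} (hs : 0 < s)
    (hγ : ∀ z ∈ ball ζ s, AnalyticAt ℂ γ z) (ht : ∀ z ∈ ball ζ s, AnalyticAt ℂ t z)
    (hu : ∀ z ∈ ball ζ s, ContMDiffAt 𝓘(ℂ, Cm R) 𝓘(ℂ, Cm R) ω u z)
    (h : (u : Germ (𝓝 ζ) Z) ∈ BrG p v F j γ t ζ) {z : Cm R} (hz : z ∈ ball ζ s) :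
    (u : Germ (𝓝 z) Z) ∈ BrG p v F j γ t z := by
  obtain ⟨l₀, h₀⟩ := mem_BrG_coe.1 h
  have hζ : ζ ∈ ball ζ s := mem_ball_self hs
  obtain ⟨L, hL, hLζ, hpL⟩ := exists_lift_ball hp hs (u := fun z => j (u z)) (y := l₀ ζ)
    (fun z hz => ((hj.continuous.continuousAt).comp (hu z hz).continuousAt).continuousWithinAt)
    h₀.lift.self_of_nhds
  have hLc : ∀ z ∈ ball ζ s, ContinuousAt L z := fun z hz =>
    hL.continuousAt (isOpen_ball.mem_nhds hz)
  have hLl : L =ᶠ[𝓝 ζ] l₀ := by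
    refine lift_unique hp.isLocalHomeomorph (hLc ζ hζ) h₀.cont hLζ ?_
    filter_upwards [h₀.lift, isOpen_ball.mem_nhds hζ] with z a1 a2
    rw [a1, hpL z a2]
  have h₁ := h₀.congr (f' := u) (Eventually.of_forall fun _ => rfl) hLl
  have hLev : ∀ z ∈ ball ζ s, ∀ᶠ z' in 𝓝 z, p (L z') = j (u z') := fun z hz => by
    filter_upwards [isOpen_ball.mem_nhds hz] with z' hz'
    exact hpL z' hz'
  have hLh : ∀ z ∈ ball ζ s, ContMDiffAt 𝓘(ℂ, Cm R) 𝓘(ℂ, Cm n) ω (fun z => p (L z)) z :=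
    fun z hz => ((hj (u z)).comp z (hu z hz)).congr_of_eventuallyEq (hLev z hz)
  have hpre : IsPreconnected (ball ζ s) := (convex_ball ζ s).isPreconnected
  have hV : EqOn (VE p v L) γ (ball ζ s) :=
    AnalyticOnNhd.eqOn_of_preconnected_of_eventuallyEq
      (fun z hz => VE_analyticAt' hv (hLc z hz) (hLh z hz)) hγ hpre hζ h₁.val
  have hFt : EqOn (fun z => F (L z)) t (ball ζ s) :=
    AnalyticOnNhd.eqOn_of_preconnected_of_eventuallyEq
      (fun z hz => hF.an (hLc z hz) (hLh z hz)) ht hpre hζ h₁.fval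
  refine mem_BrG_coe.2 ⟨L, hu z hz, hLc z hz, hLev z hz, ?_, ?_⟩
  · filter_upwards [isOpen_ball.mem_nhds hz] with z' hz' using hV hz'
  · filter_upwards [isOpen_ball.mem_nhds hz] with z' hz' using hFt hz'

end

end Vale.Agent.P284.H837
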