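import Vale.Agent.P284.H837.Br1

/-!
# P284 (helper837), T1': transport of branches
-/

open scoped Manifold ContDiff Topology
open Filter Set Metric

noncomputable section

namespace Vale.Agent.P284.H837

open Vale.Agent.P272.K Vale.Agent.P272.KOD Vale.Agent.P284.H573 Vale.Agent.P284.H812
  Vale.Agent.P284.H451 Vale.Agent.P284.H553 Vale.Agent.P284.H619

section inv

variable {R : ℕ}

/-- local inverse of an analytic map with invertible derivative -/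
lemma exists_linv {φ : Cm R → Cm R} {β : Cm R} (hφ : AnalyticAt ℂ φ β)
    (hb : Function.Bijective (fderiv ℂ φ β)) : ∃ ψ : Cm R → Cm R, AnalyticAt ℂ ψ (φ β) ∧
      ψ (φ β) = β ∧ (∀ᶠ z in 𝓝 β, ψ (φ z) = z) ∧ (∀ᶠ z in 𝓝 (φ β), φ (ψ z) = z) ∧
      map φ (𝓝 β) = 𝓝 (φ β) := by
  set A : Cm R ≃L[ℂ] Cm R := (LinearEquiv.ofBijective (fderiv ℂ φ β : Cm R →ₗ[ℂ] Cm R)
    hb).toContinuousLinearEquiv with hA
  have hAe : (A : Cm R →L[ℂ] Cm R) = fderiv ℂ φ β := by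
    ext x; rfl
  have h1 : ContDiffAt ℂ ω φ β := hφ.contDiffAt
  have h2 : HasFDerivAt φ (A : Cm R →L[ℂ] Cm R) β := by
    rw [hAe]; exact hφ.differentiableAt.hasFDerivAt
  set T := h1.toOpenPartialHomeomorph φ h2 (by simp) with hT
  have hTc : (T : Cm R → Cm R) = φ := h1.toOpenPartialHomeomorph_coe h2 (by simp)
  have hβ : β ∈ T.source := h1.mem_toOpenPartialHomeomorph_source h2 (by simp)
  have hβ' : φ β ∈ T.target := by
    rw [← hTc]; exact T.map_source hβ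
  refine ⟨T.symm, ?_, ?_, ?_, ?_, ?_⟩
  · have h3 : ContDiffAt ℂ ω T.symm (T β) := by
      rw [hTc]
      exact h1.to_localInverse h2 (by simp)
    rw [hTc] at h3
    exact h3.analyticAt
  · have h4 := T.left_inv hβ
    rwa [hTc] at h4
  · filter_upwards [T.open_source.mem_nhds hβ] with z hz
    have h4 := T.left_inv hz
    rwa [hTc] at h4
  · filter_upwards [T.open_target.mem_nhds hβ'] with z hz
    have h4 := T.right_inv hz
    rwa [hTc] at h4
  · have h5 := T.map_nhds_eq hβ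
    rwa [hTc] at h5

end inv

variable {n R q m : ℕ} {X E Z : Type} [TopologicalSpace X] [ChartedSpace (Cm n) X]
  [TopologicalSpace E] [TopologicalSpace Z] [ChartedSpace (Cm R) Z] {p : E → X}
  {H : Type} [NormedAddCommGroup H] [InnerProductSpace ℂ H]
  {v : E → Chart n X → (Fin R → Cm n) → H} {F : E → Cm q} {j : Z → X}
  [IsManifold 𝓘(ℂ, Cm n) ω X] [IsManifold 𝓘(ℂ, Cm R) ω Z]
  {Γ : Type} [Group Γ] [MulAction Γ E] {c : Γ → Cm q}

omit [IsManifold 𝓘(ℂ, Cm n) ω X] [IsManifold 𝓘(ℂ, Cm R) ω Z] in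
lemma comp_hol {f : Cm R → Z} {φ : Cm R → Cm R} {β : Cm R} (hφ : AnalyticAt ℂ φ β)
    (hf : ContMDiffAt 𝓘(ℂ, Cm R) 𝓘(ℂ, Cm R) ω f (φ β)) :
    ContMDiffAt 𝓘(ℂ, Cm R) 𝓘(ℂ, Cm R) ω (fun z => f (φ z)) β :=
  hf.comp β hφ.contDiffAt.contMDiffAt

/-- Transport of branches by `φ`. -/
theorem BrL.pull (hv : HForm n R m p H v) (hj : ContMDiff 𝓘(ℂ, Cm R) 𝓘(ℂ, Cm n) ω j)
    (hp : IsLocalHomeomorph p) (hpi : ∀ (g : Γ) y, p (g • y) = p y)
    (hgc : ∀ g : Γ, Continuous fun y : E => g • y) (hFc : ∀ g y, F (g • y) = F y + c g)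
    {g : Γ} {U : H →ₗᵢ[ℂ] H} (hU : ∀ y e, At e (p y) → ∀ ξ, v (g • y) e ξ = U (v y e ξ))
    {γ γ' : Cm R → H} {t t' : Cm R → Cm q} {φ : Cm R → Cm R} {β : Cm R}
    (hφ : AnalyticAt ℂ φ β)
    (h1 : ∀ᶠ z in 𝓝 β, U (γ z) = (fderiv ℂ φ z).det ^ m • γ' (φ z))
    (h2 : ∀ᶠ z in 𝓝 β, t' (φ z) = t z + c g) {f : Cm R → Z} {l : Cm R → E}
    (h : BrL p v F j γ' t' (φ β) f l) :
    BrL p v F j γ t β (fun z => f (φ z)) (fun z => g⁻¹ • l (φ z)) := by
  have hev := hφ.continuousAt.eventually (h.ev hj hp)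
  refine ⟨comp_hol hφ h.hol, ?_, ?_, ?_, ?_⟩
  · exact (hgc g⁻¹).continuousAt.comp (h.cont.comp hφ.continuousAt)
  · filter_upwards [hφ.continuousAt.eventually h.lift] with z hz
    rw [hpi, hz]
  · filter_upwards [hev, h1, hφ.eventually_analyticAt] with z a1 a2 a3
    have b1 := VE_comp hv (l := l) a3 (a1.hol_lift hj)
    rw [a1.val.self_of_nhds, ← a2] at b1
    have b2 := VE_smul (p := p) (v := v) hpi hU (l := fun z => g⁻¹ • l (φ z)) (z := z)
    simp only [smul_inv_smul] at b2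
    rw [b1] at b2
    exact (U.injective b2).symm
  · filter_upwards [hev, h2] with z a1 a2
    have b1 := hFc g (g⁻¹ • l (φ z))
    rw [smul_inv_smul, a1.fval.self_of_nhds, a2] at b1
    exact (add_right_cancel b1).symm

/-- Transport of branches by the inverse of `φ`. -/
theorem BrL.push (hv : HForm n R m p H v) (hj : ContMDiff 𝓘(ℂ, Cm R) 𝓘(ℂ, Cm n) ω j)
    (hp : IsLocalHomeomorph p) (hpi : ∀ (g : Γ) y, p (g • y) = p y)
    (hgc : ∀ g : Γ, Continuous fun y : E => g • y) (hFc : ∀ g y, F (g • y) = F y + c g)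
    {g : Γ} {U : H →ₗᵢ[ℂ] H} (hU : ∀ y e, At e (p y) → ∀ ξ, v (g • y) e ξ = U (v y e ξ))
    {γ γ' : Cm R → H} {t t' : Cm R → Cm q} {φ ψ : Cm R → Cm R} {β : Cm R}
    (hφ : AnalyticAt ℂ φ β) (hψ : AnalyticAt ℂ ψ (φ β)) (hψβ : ψ (φ β) = β)
    (hφψ : ∀ᶠ z in 𝓝 (φ β), φ (ψ z) = z)
    (h1 : ∀ᶠ z in 𝓝 β, U (γ z) = (fderiv ℂ φ z).det ^ m • γ' (φ z))
    (h2 : ∀ᶠ z in 𝓝 β, t' (φ z) = t z + c g) {f : Cm R → Z} {l : Cm R → E}
    (h : BrL p v F j γ t β f l) :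
    BrL p v F j γ' t' (φ β) (fun z => f (ψ z)) (fun z => g • l (ψ z)) := by
  have hψc : Tendsto ψ (𝓝 (φ β)) (𝓝 β) := by
    have := hψ.continuousAt.tendsto
    rwa [hψβ] at this
  have hev := hψc.eventually (h.ev hj hp)
  refine ⟨comp_hol hψ (by rw [hψβ]; exact h.hol), ?_, ?_, ?_, ?_⟩
  · refine (hgc g).continuousAt.comp (ContinuousAt.comp (g := l) (by rw [hψβ]; exact h.cont)
      hψ.continuousAt)
  · filter_upwards [hψc.eventually h.lift] with z hz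
    rw [hpi, hz]
  · filter_upwards [hev, hψc.eventually h1, hψ.eventually_analyticAt, hφψ.eventually_nhds,
      hψc.eventually hφ.eventually_analyticAt] with z a1 a2 a3 a4 a5
    rw [VE_smul (p := p) (v := v) hpi hU (l := fun z => l (ψ z)) (z := z),
      VE_comp hv (l := l) a3 (a1.hol_lift hj), a1.val.self_of_nhds, map_smul, a2, smul_smul,
      ← mul_pow]
    have b1 : (fun z => φ (ψ z)) =ᶠ[𝓝 z] id := a4
    have b2 : (fderiv ℂ φ (ψ z)).comp (fderiv ℂ ψ z) = ContinuousLinearMap.id ℂ (Cm R) := by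
      rw [← fderiv_comp (𝕜 := ℂ) z (g := φ) a5.differentiableAt a3.differentiableAt,
        ← fderiv_id (𝕜 := ℂ) (x := z)]
      exact b1.fderiv_eq
    have b3 : (fderiv ℂ ψ z).det * (fderiv ℂ φ (ψ z)).det = 1 := by
      rw [mul_comm]
      have b4 := congrArg (fun L : Cm R →L[ℂ] Cm R => L.det) b2
      have b5 : ((fderiv ℂ φ (ψ z)).comp (fderiv ℂ ψ z)).det =
          (fderiv ℂ φ (ψ z)).det * (fderiv ℂ ψ z).det := LinearMap.det_comp _ _
      rw [← b5, b4]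
      exact LinearMap.det_id
    rw [b3, one_pow, one_smul, a4.self_of_nhds]
  · filter_upwards [hev, hψc.eventually h2, hφψ] with z a1 a2 a3
    rw [hFc, a1.fval.self_of_nhds, ← a2, a3]

end Vale.Agent.P284.H837
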