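import Vale.Agent.P284.H837.Fin1
import Vale.Agent.P284.H837.VAF
import Vale.Agent.P284.H478.Fin
import Vale.Agent.P284.H812.NSF18

/-!
# Amenable quotients of the fundamental groups of special projective manifolds

Let `X` be a connected smooth projective manifold of dimension `n` such that `X` and all its finite
étale coverings are special in the sense of Campana.

* Every amenable quotient of `π₁(X)` has an abelian subgroup of finite index with at most `2 n`
  generators.
* `π₁(X)` is virtually abelian if and only if it is amenable.
* It is virtually abelian if almost every point of `X` is joined to a countable set by a chain of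
  entire curves, or if at almost every point of `X` the velocities of the entire curves span the
  tangent space.
-/

open scoped Manifold ContDiff
open Vale.Agent.P272.K Vale.Agent.P284.H248 Vale.Agent.P284.H894 Vale.Agent.P284.H894.G
  Vale.Agent.P284.H894.F Vale.Agent.P284.H478 Vale.Agent.P284.H837

namespace Vale.Agent.P284.H837.SA

theorem result {n : ℕ} {X : Type} [TopologicalSpace X] [T2Space X] [CompactSpace X]
    [ConnectedSpace X] [ChartedSpace (Cm n) X] [IsManifold 𝓘(ℂ, Cm n) ω X]
    (hX : Embedded n X) (hS : FSp n X) (x : X) :
    (∀ (Q : Type) [Group Q] (f : FundamentalGroup X x →* Q), Function.Surjective f → Folner Q →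
      VirtAbelianRank Q (2 * n)) ∧
    (VirtuallyAbelian (FundamentalGroup X x) ↔ Folner (FundamentalGroup X x)) ∧
    ((SubexpGrowth (FundamentalGroup X x) ∨ AECurveConnected n x ∨ AECurveSpanned n x) →
      VirtAbelianRank (FundamentalGroup X x) (2 * n)) := by
  obtain ⟨h1, h2⟩ := pi_of (mainPiQ_sp Vale.Agent.P284.H812.NSF.ns2) hX hS x
  refine ⟨h1, ⟨folner_of_virtuallyAbelian, fun h => ?_⟩, fun h => h2 (Or.inr h)⟩
  obtain ⟨A, h3, h4, -⟩ := h2 (Or.inl h)
  exact ⟨A, h3, h4⟩

end Vale.Agent.P284.H837.SA
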