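import Vale.Agent.P284.H837.BrS

/-!
# P284 (helper837), T1': the trace as a section on `X`
-/

open scoped Manifold ContDiff Topology ComplexOrder
open Filter Set Metric

noncomputable section

namespace Vale.Agent.P284.H837

open Vale.Agent.P272.K Vale.Agent.P272.KOD Vale.Agent.P284.H573 Vale.Agent.P284.H812
  Vale.Agent.P284.H451 Vale.Agent.P284.H553 Vale.Agent.P284.H619 Vale.Agent.P284.H894
  Vale.Agent.P284.H894.G Vale.Agent.P284.H553.LB Vale.Agent.P284.H335

section DM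

variable {n R : ℕ}

lemma DM_comp {φ : Cm R → Cm R} {g : Cm n → Cm R} {z : Cm n} (hφ : DifferentiableAt ℂ φ (g z))
    (hg : DifferentiableAt ℂ g z) (ξ : Fin R → Cm n) :
    (DM (fun z => φ (g z)) z ξ).det = (fderiv ℂ φ (g z)).det * (DM g z ξ).det := by
  have h1 : fderiv ℂ (fun z => φ (g z)) z = (fderiv ℂ φ (g z)).comp (fderiv ℂ g z) :=
    fderiv_comp (𝕜 := ℂ) z hφ hg
  have h2 : DM (fun z => φ (g z)) z ξ =
      LinearMap.toMatrix' (fderiv ℂ φ (g z) : Cm R →ₗ[ℂ] Cm R) * DM g z ξ := by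
    ext i j
    rw [Matrix.mul_apply]
    simp only [DM, Matrix.of_apply, LinearMap.toMatrix'_apply]
    rw [h1]
    show (fderiv ℂ φ (g z)) (fderiv ℂ g z (ξ j)) i = _
    conv_lhs => rw [clm_sum (fderiv ℂ φ (g z)) (fderiv ℂ g z (ξ j))]
    simp only [Finset.sum_apply, Pi.smul_apply, smul_eq_mul]
    exact Finset.sum_congr rfl fun k _ => mul_comm _ _
  rw [h2, Matrix.det_mul, LinearMap.det_toMatrix']

lemma DM_congr {b b' : Cm n → Cm R} {z : Cm n} (h : b =ᶠ[𝓝 z] b') (ξ : Fin R → Cm n) :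
    DM b z ξ = DM b' z ξ := by
  unfold DM
  rw [h.fderiv_eq]

lemma DM_comp' {b : Cm n → Cm R} {τ : Cm n → Cm n} {z : Cm n} (hb : DifferentiableAt ℂ b (τ z))
    (hτ : DifferentiableAt ℂ τ z) (ξ : Fin R → Cm n) :
    DM (fun z => b (τ z)) z ξ = DM b (τ z) (fun i => fderiv ℂ τ z (ξ i)) := by
  have h1 : fderiv ℂ (fun z => b (τ z)) z = (fderiv ℂ b (τ z)).comp (fderiv ℂ τ z) :=
    fderiv_comp (𝕜 := ℂ) z hb hτ
  unfold DM
  rw [h1]
  rfl

end DM

variable {n R q m : ℕ} {X E Z Γ : Type} [TopologicalSpace X] [ChartedSpace (Cm n) X]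
  [TopologicalSpace E] [TopologicalSpace Z] [ChartedSpace (Cm R) Z] [Group Γ] [MulAction Γ E]
  {H : Type} [NormedAddCommGroup H] [InnerProductSpace ℂ H] {p : E → X}
  {v : E → Chart n X → (Fin R → Cm n) → H} {F : E → Cm q} {c : Γ → Cm q} {j : Z → X}

/-- a normal form over the point `x` of `X` -/
structure ND (m : ℕ) (p : E → X) (v : E → Chart n X → (Fin R → Cm n) → H) (F : E → Cm q)
    (x : X) where
  y : E
  e : Chart n X
  b : Cm n → Cm R
  γ : Cm R → H
  t : Cm R → Cm q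
  hy : p y = x
  nf : NFF m p v F y e b γ t

namespace ND

variable {x : X} (D : ND m p v F x)

lemma mem : At D.e x := by
  have h := D.nf.nf.mem
  rwa [D.hy] at h

lemma ban : AnalyticAt ℂ D.b (D.e x) := by
  have h := D.nf.nf.ban
  rwa [D.hy] at h

end ND

lemma NFF.ev [CompleteSpace H] {y₀ : E} {e : Chart n X} {b : Cm n → Cm R} {γ : Cm R → H}
    {t : Cm R → Cm q} (h : NFF m p v F y₀ e b γ t) (hp : IsCoveringMap p) :
    ∀ᶠ y in 𝓝 y₀, NFF m p v F y e b γ t := by
  have h1 := h.nf.eventually hp.continuous.continuousAt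
  have h2 : ContinuousAt (fun y => b (e (p y))) y₀ :=
    ContinuousAt.comp (g := b) (f := fun y => e (p y)) h.nf.ban.continuousAt
      (tendsto_ep hp h.nf.mem)
  filter_upwards [h1, h2.eventually h.tan.eventually_analyticAt, h.eq.eventually_nhds]
    with y a1 a2 a3
  exact ⟨a1, a2, a3⟩

lemma NFF.evX [CompleteSpace H] {y₀ : E} {e : Chart n X} {b : Cm n → Cm R} {γ : Cm R → H}
    {t : Cm R → Cm q} (h : NFF m p v F y₀ e b γ t) (hp : IsCoveringMap p) :
    ∀ᶠ x in 𝓝 (p y₀), ∃ y, p y = x ∧ NFF m p v F y e b γ t := by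
  rw [← hp.isLocalHomeomorph.map_nhds_eq y₀, eventually_map]
  filter_upwards [h.ev hp] with y hy
  exact ⟨y, rfl, hy⟩

variable (m p v F j) in
open Classical in
/-- the number of branches over `x` -/
def cnt (x : X) : ℕ∞ :=
  if h : Nonempty (ND m p v F x) then
    (BrG p v F j (Classical.choice h).γ (Classical.choice h).t
      ((Classical.choice h).b ((Classical.choice h).e x))).encard
  else 0

variable (m p v F j) in
open Classical in
/-- the trace of the section `σ` on `X` -/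
def sTr {k : ℕ} (σ : PSec R k Z) (x : X) (e : Chart n X) (ξ : Fin R → Cm n) : ℂ :=
  if h : Nonempty (ND m p v F x) then
    trv (BrG p v F j (Classical.choice h).γ (Classical.choice h).t) σ
      ((Classical.choice h).b ((Classical.choice h).e x)) *
      (DM (fun z => (Classical.choice h).b ((Classical.choice h).e (e.symm z))) (e x) ξ).det ^ k
  else 0

section

variable [IsManifold 𝓘(ℂ, Cm n) ω X] [IsManifold 𝓘(ℂ, Cm R) ω Z] [CompleteSpace H]

theorem cnt_eq (hM3 : M3Stmt) (hD : Dat n R q m X E Γ H p v F c)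
    (hj : ContMDiff 𝓘(ℂ, Cm R) 𝓘(ℂ, Cm n) ω j) {x : X} (D : ND m p v F x) :
    cnt m p v F j x = (BrG p v F j D.γ D.t (D.b (D.e x))).encard := by
  have h : Nonempty (ND m p v F x) := ⟨D⟩
  unfold cnt
  rw [dif_pos h]
  set D' := Classical.choice h
  obtain ⟨φ, -, -, -, -, hφ⟩ := hM3 n R q m X E Γ H p v F c hD D.y D'.y
    (by rw [D.hy, D'.hy]) D.e D'.e D.b D'.b D.γ D'.γ D.t D'.t D.nf D'.nf
  have h1 := (hφ Z j hj).1
  rw [D.hy] at h1
  exact h1.symm

theorem sTr_eq (hM3 : M3Stmt) (hD : Dat n R q m X E Γ H p v F c)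
    (hj : ContMDiff 𝓘(ℂ, Cm R) 𝓘(ℂ, Cm n) ω j) {k : ℕ} (σ : PSec R k Z) {x : X}
    (D : ND m p v F x) {e : Chart n X} (he : At e x) (ξ : Fin R → Cm n) :
    sTr m p v F j σ x e ξ = trv (BrG p v F j D.γ D.t) σ (D.b (D.e x)) *
      (DM (fun z => D.b (D.e (e.symm z))) (e x) ξ).det ^ k := by
  have h : Nonempty (ND m p v F x) := ⟨D⟩
  unfold sTr
  rw [dif_pos h]
  set D' := Classical.choice h
  obtain ⟨φ, hφa, -, hb, -, hφ⟩ := hM3 n R q m X E Γ H p v F c hD D.y D'.y
    (by rw [D.hy, D'.hy]) D.e D'.e D.b D'.b D.γ D'.γ D.t D'.t D.nf D'.nf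
  have h1 := (hφ Z j hj).2 k σ
  rw [D.hy] at h1 hb hφa
  rw [h1]
  have hx : e.symm (e x) = x := he.left_inv
  have hτ : AnalyticAt ℂ (fun z => D.e (e.symm z)) (e x) := (transition he D.mem).analyticAt
  have hg : AnalyticAt ℂ (fun z => D.b (D.e (e.symm z))) (e x) := by
    refine AnalyticAt.fun_comp (g := D.b) ?_ hτ
    rw [hx]
    exact D.ban
  have h2 : (fun z => D'.b (D'.e (e.symm z))) =ᶠ[𝓝 (e x)]
      fun z => φ (D.b (D.e (e.symm z))) := by
    have h3 : Tendsto e.symm (𝓝 (e x)) (𝓝 x) := by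
      have := (e.continuousAt_symm he.mem_target).tendsto
      rwa [hx] at this
    exact h3.eventually hb
  have h4 : (DM (fun z => D'.b (D'.e (e.symm z))) (e x) ξ).det =
      (fderiv ℂ φ (D.b (D.e x))).det * (DM (fun z => D.b (D.e (e.symm z))) (e x) ξ).det := by
    rw [DM_congr h2]
    have h5 := DM_comp (φ := φ) (g := fun z => D.b (D.e (e.symm z))) (z := e x)
      (by rw [hx]; exact hφa.differentiableAt) hg.differentiableAt ξ
    rw [hx] at h5
    exact h5
  rw [h4]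
  ring

end

end Vale.Agent.P284.H837
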